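import Vale.Agent.P247.H647.Sta

/-!
# E6 (maximum principle) : constant algebra
-/

open scoped ContDiff Topology
open Set MeasureTheory Filter Metric

noncomputable section

namespace Vale.Agent.P247.H332.E6

open Vale.Agent.P247.H74 Vale.Agent.P247.H574 Vale.Agent.P247.H647

/-- the adjoint of `σ_c` -/
def sigs (c : Fin 4) : En := opM (sigM c).conjTranspose

theorem opM_apply (M : Matrix (Fin 2) (Fin 2) ℂ) (ψ : Sp) (i : Fin 2) :
    (opM M ψ) i = M i 0 * ψ 0 + M i 1 * ψ 1 := by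
  have : (opM M ψ) i = M.mulVec (fun j => ψ j) i := rfl
  rw [this, Matrix.mulVec, dotProduct, Fin.sum_univ_two]

/-- the sum over pairs `c < a` -/
def lt (G : Fin 4 → Fin 4 → Sp) : Sp :=
  G 0 1 + G 0 2 + G 0 3 + G 1 2 + G 1 3 + G 2 3

theorem cliff (H : Fin 4 → Fin 4 → Sp) :
    ∑ c, sigs c (∑ a, sig a (H c a)) =
      ∑ a, H a a + lt fun c a => sigs c (sig a (H c a - H a c)) := by
  ext i
  simp only [Fin.sum_univ_four, lt, PiLp.add_apply]
  fin_cases i <;>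
    simp [sigs, sig, opM_apply, sigM, pauM, Matrix.conjTranspose_apply] <;> ring_nf <;>
    simp <;> ring

theorem curvT (F : Fin 4 → Fin 4 → ℝ) (hF : ∀ a c, F a c = -F c a) (ψ : Sp) :
    lt (fun c a => sigs c (sig a ((-(Complex.I * (F c a : ℂ))) • ψ))) =
      ∑ k, (hat F k : ℂ) • pau k ψ := by
  have h31 : (F 3 1 : ℂ) = -(F 1 3 : ℂ) := by rw [hF 3 1]; push_cast; ring
  ext i
  simp only [Fin.sum_univ_three, lt, PiLp.add_apply]
  fin_cases i <;>
    simp [sigs, sig, pau, opM_apply, sigM, pauM, Matrix.conjTranspose_apply, hat, h31] <;>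
    ring_nf <;> simp <;> ring

/-- the real quadratic forms `⟨ψ, pau k ψ⟩` -/
def sp (ψ : Sp) (k : Fin 3) : ℝ := (inner ℂ ψ (pau k ψ)).re

theorem normsq (ψ : Sp) : ‖ψ‖ ^ 2 = (ψ 0).re ^ 2 + (ψ 0).im ^ 2 + (ψ 1).re ^ 2 + (ψ 1).im ^ 2 := by
  rw [EuclideanSpace.norm_eq, Real.sq_sqrt (Finset.sum_nonneg fun _ _ => sq_nonneg _),
    Fin.sum_univ_two, ← Complex.normSq_eq_norm_sq, ← Complex.normSq_eq_norm_sq,
    Complex.normSq_apply, Complex.normSq_apply]
  ring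

theorem inner_def (φ ψ : Sp) : inner ℂ φ ψ = (starRingEnd ℂ) (φ 0) * ψ 0 +
    (starRingEnd ℂ) (φ 1) * ψ 1 := by
  rw [PiLp.inner_apply, Fin.sum_univ_two]
  simp only [RCLike.inner_apply]
  ring

theorem sp_sq (ψ : Sp) : ∑ k, sp ψ k ^ 2 = (‖ψ‖ ^ 2) ^ 2 := by
  rw [normsq]
  simp only [Fin.sum_univ_three, sp, inner_def, pau, opM_apply, pauM]
  simp
  ring

theorem sigs_sig_self (c : Fin 4) (ψ : Sp) : sigs c (sig c ψ) = ψ := by
  ext i
  fin_cases c <;> fin_cases i <;>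
    simp [sigs, sig, opM_apply, sigM, pauM, Matrix.conjTranspose_apply] <;> ring_nf <;> simp

end Vale.Agent.P247.H332.E6
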