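import Vale.Agent.P247.H332.E6.Alg

/-!
# E6 (maximum principle) : calculus
-/

open scoped ContDiff Topology
open Set MeasureTheory Filter Metric

noncomputable section

namespace Vale.Agent.P247.H332.E6

open Vale.Agent.P247.H74 Vale.Agent.P247.H574 Vale.Agent.P247.H647

variable {A : R4 → R4 →L[ℝ] ℝ} {s : R4 → Sp}

theorem hasFDerivAt_cov {b : R4 → R4} (hA : ContDiff ℝ 1 A) (hs : ContDiff ℝ 2 s)
    (hb : ContDiff ℝ 1 b) (x : R4) :
    DifferentiableAt ℝ (fun y => cov A s y (b y)) x ∧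
    ∀ u, fderiv ℝ (fun y => cov A s y (b y)) x u =
      fderiv ℝ (fderiv ℝ s) x u (b x) + fderiv ℝ s x (fderiv ℝ b x u) -
        ((Complex.I * ((fderiv ℝ A x u (b x) + A x (fderiv ℝ b x u) : ℝ) : ℂ)) • s x +
        (Complex.I * (A x (b x) : ℂ)) • fderiv ℝ s x u) := by
  have hA' : HasFDerivAt A (fderiv ℝ A x) x := (hA.differentiable one_ne_zero x).hasFDerivAt
  have hs' : HasFDerivAt s (fderiv ℝ s x) x := (hs.differentiable two_ne_zero x).hasFDerivAt
  have hs2 : HasFDerivAt (fderiv ℝ s) (fderiv ℝ (fderiv ℝ s) x) x :=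
    ((hs.fderiv_right (m := 1) (by norm_num)).differentiable one_ne_zero x).hasFDerivAt
  have hb' : HasFDerivAt b (fderiv ℝ b x) x := (hb.differentiable one_ne_zero x).hasFDerivAt
  have h1 := hs2.clm_apply hb'
  have h2 := hA'.clm_apply hb'
  have h3 : HasFDerivAt (fun y => ((A y (b y) : ℝ) : ℂ)) (Complex.ofRealCLM.comp
      ((A x).comp (fderiv ℝ b x) + (fderiv ℝ A x).flip (b x))) x :=
    Complex.ofRealCLM.hasFDerivAt.comp x h2
  have h4 := (h3.const_mul Complex.I).smul hs'
  have h5 := h1.sub h4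
  refine ⟨h5.differentiableAt, fun u => ?_⟩
  have h6 := congrArg (fun L => L u) h5.fderiv
  refine Eq.trans h6 ?_
  simp only [sub_apply, add_apply,
    ContinuousLinearMap.comp_apply, ContinuousLinearMap.flip_apply, smul_apply,
    ContinuousLinearMap.smulRight_apply, Complex.ofRealCLM_apply, smul_eq_mul]
  rw [add_comm (fderiv ℝ s x (fderiv ℝ b x u)), add_comm (A x (fderiv ℝ b x u)), add_comm
    ((Complex.I * (A x (b x) : ℂ)) • fderiv ℝ s x u)]

theorem dd_apply (x u v : R4) : dd A x u v = fderiv ℝ A x u v - fderiv ℝ A x v u := rfl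

/-- the commutator of covariant derivatives -/
theorem comm_cov {b c : R4 → R4} (hA : ContDiff ℝ 1 A) (hs : ContDiff ℝ 2 s)
    (hb : ContDiff ℝ 1 b) (hc : ContDiff ℝ 1 c) (x : R4) :
    cov A (fun y => cov A s y (b y)) x (c x) - cov A (fun y => cov A s y (c y)) x (b x) =
      cov A s x (fderiv ℝ b x (c x) - fderiv ℝ c x (b x)) +
        (-(Complex.I * (dd A x (c x) (b x) : ℂ))) • s x := by
  have h1 := (hasFDerivAt_cov hA hs hb x).2 (c x)
  have h2 := (hasFDerivAt_cov hA hs hc x).2 (b x)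
  have hsym : fderiv ℝ (fderiv ℝ s) x (c x) (b x) = fderiv ℝ (fderiv ℝ s) x (b x) (c x) := by
    have := (hs.contDiffAt (x := x)).isSymmSndFDerivAt (by simp)
    exact this.eq _ _
  simp only [cov] at h1 h2 ⊢
  rw [h1, h2, hsym, dd_apply]
  simp only [map_sub]
  push_cast
  module

theorem fderiv_inner' {f g : R4 → Sp} {x : R4} (hf : DifferentiableAt ℝ f x)
    (hg : DifferentiableAt ℝ g x) (u : R4) :
    fderiv ℝ (fun y => (inner ℂ (f y) (g y)).re) x u =
      (inner ℂ (f x) (fderiv ℝ g x u)).re + (inner ℂ (fderiv ℝ f x u) (g x)).re := by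
  have h1 : HasFDerivAt (fun y => inner ℂ (f y) (g y)) _ x := hf.hasFDerivAt.inner ℂ hg.hasFDerivAt
  have h2 := Complex.reCLM.hasFDerivAt.comp x h1
  have h3 := congrArg (fun L => L u) h2.fderiv
  refine Eq.trans h3 ?_
  simp [fderivInnerCLM_apply]

theorem inner_cov (φ ψ : Sp) (t : ℝ) :
    (inner ℂ φ ((Complex.I * (t : ℂ)) • ψ)).re + (inner ℂ ((Complex.I * (t : ℂ)) • φ) ψ).re = 0 := by
  rw [inner_smul_left, inner_smul_right, map_mul, Complex.conj_I, Complex.conj_ofReal]
  simp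

/-- derivative of `|s|²` -/
theorem fderiv_normsq {x : R4} (hs : DifferentiableAt ℝ s x) (u : R4) :
    fderiv ℝ (fun y => ‖s y‖ ^ 2) x u = 2 * (inner ℂ (s x) (cov A s x u)).re := by
  have h0 : (fun y => ‖s y‖ ^ 2) = fun y => (inner ℂ (s y) (s y)).re := by
    funext y
    rw [← RCLike.re_eq_complex_re, inner_self_eq_norm_sq]
  rw [h0, fderiv_inner' hs hs, cov, inner_sub_right]
  have h1 := inner_cov (s x) (s x) (A x u)
  have h2 : (inner ℂ (fderiv ℝ s x u) (s x)).re = (inner ℂ (s x) (fderiv ℝ s x u)).re := by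
    rw [← inner_conj_symm, Complex.conj_re]
  have h3 : (inner ℂ ((Complex.I * (A x u : ℂ)) • s x) (s x)).re =
      (inner ℂ (s x) ((Complex.I * (A x u : ℂ)) • s x)).re := by
    rw [← inner_conj_symm, Complex.conj_re]
  rw [Complex.sub_re]
  linarith

/-- second derivative of `|s|²` along a vector field -/
theorem fderiv2_normsq {b : R4 → R4} (hA : ContDiff ℝ 1 A) (hs : ContDiff ℝ 2 s)
    (hb : ContDiff ℝ 1 b) (x : R4) :
    fderiv ℝ (fun y => fderiv ℝ (fun z => ‖s z‖ ^ 2) y (b y)) x (b x) =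
      2 * (inner ℂ (s x) (cov A (fun y => cov A s y (b y)) x (b x))).re +
        2 * ‖cov A s x (b x)‖ ^ 2 := by
  have hsd : Differentiable ℝ s := hs.differentiable two_ne_zero
  have h0 : (fun y => fderiv ℝ (fun z => ‖s z‖ ^ 2) y (b y)) =
      fun y => 2 * (inner ℂ (s y) (cov A s y (b y))).re := by
    funext y
    exact fderiv_normsq (hsd y) _
  have hN := (hasFDerivAt_cov hA hs hb x).1
  have hd : DifferentiableAt ℝ (fun y => (inner ℂ (s y) (cov A s y (b y))).re) x :=
    (Complex.reCLM.differentiableAt).comp x ((hsd x).inner ℂ hN)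
  rw [h0, fderiv_const_mul hd, smul_apply, smul_eq_mul, fderiv_inner' (hsd x) hN]
  set N := fun y => cov A s y (b y) with hNdef
  have h1 : fderiv ℝ N x (b x) = cov A N x (b x) + (Complex.I * (A x (b x) : ℂ)) • N x := by
    rw [cov]
    abel
  have h2 : fderiv ℝ s x (b x) = N x + (Complex.I * (A x (b x) : ℂ)) • s x := by
    rw [hNdef]
    simp only [cov]
    abel
  have h3 := inner_cov (s x) (N x) (A x (b x))
  have h4 : (inner ℂ (N x) (N x)).re = ‖N x‖ ^ 2 := by
    rw [← RCLike.re_eq_complex_re, inner_self_eq_norm_sq]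
  have h5 : cov A s x (b x) = N x := rfl
  rw [h1, h2, h5, inner_add_right, inner_add_left, Complex.add_re, Complex.add_re, h4]
  linarith

end Vale.Agent.P247.H332.E6
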