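import Vale.Agent.P247.H332.E6.Max

/-!
# E6 : the perturbation vector in the frame
-/

open scoped ContDiff Topology
open Set MeasureTheory Filter Metric

noncomputable section

namespace Vale.Agent.P247.H332.E6

open Vale.Agent.P247.H74 Vale.Agent.P247.H574 Vale.Agent.P247.H647

variable {D : Data} (Q : Quat D)

theorem len_nonneg (v : Fin 3 → ℝ) : 0 ≤ len v := Real.sqrt_nonneg _

theorem len_sq (v : Fin 3 → ℝ) : len v ^ 2 = ∑ k, v k ^ 2 :=
  Real.sq_sqrt (Finset.sum_nonneg fun _ _ => sq_nonneg _)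

theorem abs_le_len (v : Fin 3 → ℝ) (k : Fin 3) : |v k| ≤ len v := by
  refine Real.abs_le_sqrt ?_
  exact Finset.single_le_sum (f := fun k => v k ^ 2) (fun _ _ => sq_nonneg _) (Finset.mem_univ k)

theorem len_le_sum (v : Fin 3 → ℝ) : len v ≤ ∑ k, |v k| := by
  rw [len, Real.sqrt_le_left (Finset.sum_nonneg fun _ _ => abs_nonneg _), Fin.sum_univ_three,
    Fin.sum_univ_three, ← sq_abs (v 0), ← sq_abs (v 1), ← sq_abs (v 2)]
  nlinarith [abs_nonneg (v 0), abs_nonneg (v 1), abs_nonneg (v 2),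
    mul_nonneg (abs_nonneg (v 0)) (abs_nonneg (v 1)),
    mul_nonneg (abs_nonneg (v 0)) (abs_nonneg (v 2)),
    mul_nonneg (abs_nonneg (v 1)) (abs_nonneg (v 2))]

theorem T_dv (x : R4) (v : Fin 3 → ℝ) : (Q.T x).mulVec (Q.dv x v) = v := by
  rw [Quat.dv, Matrix.mulVec_mulVec, Matrix.mul_nonsing_inv _ (isUnit_iff_ne_zero.2 (Q.T_det x)),
    Matrix.one_mulVec]

theorem rho_nonneg (v : Fin 3 → ℝ) (x : R4) : 0 ≤ Q.rho v x :=
  mul_nonneg two_pos.le (len_nonneg _)

theorem rho_sq (v : Fin 3 → ℝ) (x : R4) : Q.rho v x ^ 2 = 4 * ∑ k, Q.dv x v k ^ 2 := by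
  rw [Quat.rho, mul_pow, len_sq]
  norm_num

/-- entries of `T⁻¹` -/
def Ti (k j : Fin 3) (x : R4) : ℝ := (Q.T x)⁻¹ k j

theorem Ti_smooth (k j : Fin 3) : ContDiff ℝ ∞ (Ti Q k j) := by
  have hdet : ContDiff ℝ ∞ fun x => (Q.T x).det := by
    simp only [Matrix.det_fin_three]
    have h := Q.T_smooth
    exact (((((((h 0 0).mul (h 1 1)).mul (h 2 2)).sub (((h 0 0).mul (h 1 2)).mul (h 2 1))).sub
      (((h 0 1).mul (h 1 0)).mul (h 2 2))).add (((h 0 1).mul (h 1 2)).mul (h 2 0))).add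
      (((h 0 2).mul (h 1 0)).mul (h 2 1))).sub (((h 0 2).mul (h 1 1)).mul (h 2 0))
  have hadj : ContDiff ℝ ∞ fun x => (Q.T x).adjugate k j := by
    simp only [Matrix.adjugate_fin_three]
    have h := Q.T_smooth
    fin_cases k <;> fin_cases j <;> simp <;> fun_prop
  have h1 : Ti Q k j = fun x => ((Q.T x).det)⁻¹ * (Q.T x).adjugate k j := by
    funext x
    rw [Ti, Matrix.inv_def, Ring.inverse_eq_inv']
    rfl
  rw [h1]
  exact (hdet.inv fun x => Q.T_det x).mul hadj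

theorem T_per (n : Fin 4 → ℤ) (x : R4) : Q.T (tr n x) = Q.T x := by
  ext j k
  exact Q.T_per j k n x

theorem Ti_per (k j : Fin 3) : Per4 (Ti Q k j) := by
  intro n x
  rw [Ti, Ti, T_per]

theorem dv_eq (x : R4) (v : Fin 3 → ℝ) (k : Fin 3) : Q.dv x v k = ∑ j, Ti Q k j x * v j := rfl

theorem rho_per (v : Fin 3 → ℝ) : Per4 (Q.rho v) := by
  intro n x
  rw [Quat.rho, Quat.rho, Quat.dv, Quat.dv, T_per]

theorem rho_cont (v : Fin 3 → ℝ) : Continuous (Q.rho v) := by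
  have h : ∀ k, Continuous fun x => Q.dv x v k := fun k => by
    simp only [dv_eq]
    exact continuous_finsetSum _ fun j _ => (Ti_smooth Q k j).continuous.mul continuous_const
  unfold Quat.rho len
  exact continuous_const.mul (Real.continuous_sqrt.comp
    (continuous_finsetSum _ fun k _ => (h k).pow 2))

/-- the size of `v` is controlled by `rho` and conversely -/
theorem len_rho : ∃ K : ℝ, 0 < K ∧ ∀ v x, len v ≤ K * Q.rho v x ∧ Q.rho v x ≤ K * len v := by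
  have h1 : ∀ j k, ∃ C, 0 ≤ C ∧ ∀ x, ‖Q.T x j k‖ ≤ C := fun j k =>
    bdd_per (Q.T_smooth j k).continuous (Q.T_per j k)
  have h2 : ∀ j k, ∃ C, 0 ≤ C ∧ ∀ x, ‖Ti Q j k x‖ ≤ C := fun j k =>
    bdd_per (Ti_smooth Q j k).continuous (Ti_per Q j k)
  choose C1 hC1 hC1' using h1
  choose C2 hC2 hC2' using h2
  have n1 : 0 ≤ ∑ j, ∑ k, C1 j k := Finset.sum_nonneg fun j _ => Finset.sum_nonneg fun k _ => hC1 j k
  have n2 : 0 ≤ ∑ j, ∑ k, C2 j k := Finset.sum_nonneg fun j _ => Finset.sum_nonneg fun k _ => hC2 j k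
  refine ⟨∑ j, ∑ k, C1 j k + 2 * ∑ j, ∑ k, C2 j k + 1, by positivity, fun v x => ⟨?_, ?_⟩⟩
  · have h3 : ∀ j, |v j| ≤ (∑ k, C1 j k) * len (Q.dv x v) := by
      intro j
      conv_lhs => rw [← T_dv Q x v]
      rw [Matrix.mulVec, dotProduct, Finset.sum_mul]
      refine (Finset.abs_sum_le_sum_abs _ _).trans (Finset.sum_le_sum fun k _ => ?_)
      rw [abs_mul]
      exact mul_le_mul (hC1' j k x) (abs_le_len _ k) (abs_nonneg _) (hC1 j k)
    refine (len_le_sum v).trans ((Finset.sum_le_sum fun j _ => h3 j).trans ?_)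
    rw [← Finset.sum_mul, Quat.rho]
    have := len_nonneg (Q.dv x v)
    nlinarith
  · have h3 : ∀ j, |Q.dv x v j| ≤ (∑ k, C2 j k) * len v := by
      intro j
      rw [dv_eq, Finset.sum_mul]
      refine (Finset.abs_sum_le_sum_abs _ _).trans (Finset.sum_le_sum fun k _ => ?_)
      rw [abs_mul]
      exact mul_le_mul (hC2' j k x) (abs_le_len _ k) (abs_nonneg _) (hC2 j k)
    have h4 := (len_le_sum (Q.dv x v)).trans (Finset.sum_le_sum fun j _ => h3 j)
    rw [← Finset.sum_mul] at h4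
    rw [Quat.rho]
    have := len_nonneg v
    nlinarith

end Vale.Agent.P247.H332.E6
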