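import Vale.Agent.P247.H332.E6.Calc

/-!
# E6 (maximum principle) : the pointwise inequality
-/

open scoped ContDiff Topology
open Set MeasureTheory Filter Metric

noncomputable section

namespace Vale.Agent.P247.H332.E6

open Vale.Agent.P247.H74 Vale.Agent.P247.H574 Vale.Agent.P247.H647

/-! ### periodic functions -/

/-- every point can be moved to the cube -/
theorem exists_tr (x : R4) : ∃ n : Fin 4 → ℤ, tr n x ∈ Icc (0 : R4) 1 := by
  refine ⟨fun i => -⌊x i⌋, fun i => ?_, fun i => ?_⟩
  · have := Int.floor_le (x i)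
    simp only [tr, Pi.zero_apply]
    push_cast
    linarith
  · have := Int.lt_floor_add_one (x i)
    simp only [tr, Pi.one_apply]
    push_cast
    linarith

theorem bdd_per {E : Type*} [NormedAddCommGroup E] {g : R4 → E} (hg : Continuous g)
    (hp : Per4 g) : ∃ C, 0 ≤ C ∧ ∀ x, ‖g x‖ ≤ C := by
  obtain ⟨C, hC⟩ := (isCompact_Icc (a := (0 : R4)) (b := 1)).exists_bound_of_continuousOn
    hg.continuousOn
  refine ⟨max C 0, le_max_right _ _, fun x => ?_⟩
  obtain ⟨n, hn⟩ := exists_tr x
  rw [← hp n x]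
  exact (hC _ hn).trans (le_max_left _ _)

theorem max_per {g : R4 → ℝ} (hg : Continuous g) (hp : Per4 g) : ∃ x0, ∀ x, g x ≤ g x0 := by
  obtain ⟨x0, -, hx0⟩ := (isCompact_Icc (a := (0 : R4)) (b := 1)).exists_isMaxOn
    ⟨0, by simp⟩ hg.continuousOn
  refine ⟨x0, fun x => ?_⟩
  obtain ⟨n, hn⟩ := exists_tr x
  rw [← hp n x]
  exact hx0 hn

theorem per_fderiv {E : Type*} [NormedAddCommGroup E] [NormedSpace ℝ E] {g : R4 → E}
    (hp : Per4 g) : Per4 (fderiv ℝ g) := by
  intro n x
  have h : (fun y => g (y + fun i => (n i : ℝ))) = g := by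
    funext y
    exact hp n y
  have h2 := fderiv_comp_add_right (𝕜 := ℝ) (f := g) (x := x) (fun i => (n i : ℝ))
  rw [h] at h2
  exact h2.symm

/-! ### the frame -/

variable {D : Data} (Q : Quat D)

/-- coefficients of a vector in the frame -/
def coef (x u : R4) : Fin 4 → ℝ := (Matrix.of fun i a => Q.b a x i).adjugate.mulVec u

theorem coef_spec (x u : R4) : u = ∑ a, coef Q x u a • Q.b a x := by
  have h1 : (Matrix.of fun i a => Q.b a x i).mulVec (coef Q x u) = u := by
    rw [coef, Matrix.mulVec_mulVec, Matrix.mul_adjugate, Q.b_det x, one_smul, Matrix.one_mulVec]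
  conv_lhs => rw [← h1]
  funext i
  rw [Finset.sum_apply]
  simp only [Matrix.mulVec, dotProduct, Matrix.of_apply, Pi.smul_apply, smul_eq_mul]
  exact Finset.sum_congr rfl fun a _ => mul_comm _ _

/-- the bracket of the frame fields -/
def brk (c a : Fin 4) (x : R4) : R4 :=
  fderiv ℝ (Q.b a) x (Q.b c x) - fderiv ℝ (Q.b c) x (Q.b a x)

theorem brk_cont (c a : Fin 4) : Continuous (brk Q c a) := by
  have h : ∀ a, Continuous (fderiv ℝ (Q.b a)) := fun a =>
    (Q.b_smooth a).continuous_fderiv (by simp)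
  exact ((h a).clm_apply (Q.b_smooth c).continuous).sub
    ((h c).clm_apply (Q.b_smooth a).continuous)

theorem brk_per (c a : Fin 4) : Per4 (brk Q c a) := by
  intro n x
  simp only [brk, per_fderiv (Q.b_per a) n x, per_fderiv (Q.b_per c) n x, Q.b_per a n x,
    Q.b_per c n x]

theorem coef_bdd : ∃ C, 0 ≤ C ∧ ∀ c a d x, |coef Q x (brk Q c a x) d| ≤ C := by
  have h : ∀ c a, ∃ C, 0 ≤ C ∧ ∀ x, ‖coef Q x (brk Q c a x)‖ ≤ C := by
    intro c a
    refine bdd_per (g := fun x => coef Q x (brk Q c a x)) ?_ ?_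
    · have hM : Continuous fun x => (Matrix.of fun i a => Q.b a x i : Matrix (Fin 4) (Fin 4) ℝ) := by
        refine continuous_matrix fun i a => ?_
        exact (continuous_apply i).comp (Q.b_smooth a).continuous
      exact hM.matrix_adjugate.matrix_mulVec (brk_cont Q c a)
    · intro n x
      simp only [coef, brk_per Q c a n x, Q.b_per _ n x]
  choose C hC0 hC using h
  refine ⟨∑ c, ∑ a, C c a, Finset.sum_nonneg fun c _ => Finset.sum_nonneg fun a _ => hC0 c a,
    fun c a d x => ?_⟩
  have h1 : |coef Q x (brk Q c a x) d| ≤ C c a := by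
    rw [← Real.norm_eq_abs]
    exact (norm_le_pi_norm _ d).trans (hC c a x)
  refine h1.trans ?_
  refine (Finset.single_le_sum (f := fun a => C c a) (fun a _ => hC0 c a) (Finset.mem_univ a)).trans ?_
  exact Finset.single_le_sum (f := fun c => ∑ a, C c a)
    (fun c _ => Finset.sum_nonneg fun a _ => hC0 c a) (Finset.mem_univ c)

theorem cov_bound {A : R4 → R4 →L[ℝ] ℝ} {s : R4 → Sp} (x u : R4) {C : ℝ}
    (h : ∀ d, |coef Q x u d| ≤ C) : ‖cov A s x u‖ ≤ C * ∑ d, ‖cov A s x (Q.b d x)‖ := by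
  have h1 : cov A s x u = ∑ d, coef Q x u d • cov A s x (Q.b d x) := by
    conv_lhs => rw [coef_spec Q x u]
    simp only [cov, map_sum, map_smul, smul_sub, Finset.sum_sub_distrib]
    congr 1
    simp only [Finset.mul_sum, Finset.sum_smul, smul_eq_mul, Complex.ofReal_sum,
      Complex.ofReal_mul]
    refine Finset.sum_congr rfl fun d _ => ?_
    module
  rw [h1, Finset.mul_sum]
  refine (norm_sum_le _ _).trans (Finset.sum_le_sum fun d _ => ?_)
  rw [norm_smul, Real.norm_eq_abs]
  exact mul_le_mul_of_nonneg_right (h d) (norm_nonneg _)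

end Vale.Agent.P247.H332.E6
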