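import Vale.Agent.P247.H332.E6.Key

/-!
# E6 (maximum principle) : the pointwise inequality, second part
-/

open scoped ContDiff Topology
open Set MeasureTheory Filter Metric

noncomputable section

namespace Vale.Agent.P247.H332.E6

open Vale.Agent.P247.H74 Vale.Agent.P247.H574 Vale.Agent.P247.H647

theorem lt_add (G H : Fin 4 → Fin 4 → Sp) :
    lt (fun c a => G c a + H c a) = lt G + lt H := by
  simp only [lt]
  abel

theorem lt_norm {G : Fin 4 → Fin 4 → Sp} {C : ℝ} (h : ∀ c a, ‖G c a‖ ≤ C) : ‖lt G‖ ≤ 6 * C := by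
  have h1 := norm_add_le (G 0 1 + G 0 2 + G 0 3 + G 1 2 + G 1 3) (G 2 3)
  have h2 := norm_add_le (G 0 1 + G 0 2 + G 0 3 + G 1 2) (G 1 3)
  have h3 := norm_add_le (G 0 1 + G 0 2 + G 0 3) (G 1 2)
  have h4 := norm_add_le (G 0 1 + G 0 2) (G 0 3)
  have h5 := norm_add_le (G 0 1) (G 0 2)
  have := h 0 1
  have := h 0 2
  have := h 0 3
  have := h 1 2
  have := h 1 3
  have := h 2 3
  rw [lt]
  linarith

theorem fderiv_op {Z : R4 → En} {s : R4 → Sp} {x : R4} (hZ : DifferentiableAt ℝ Z x)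
    (hs : DifferentiableAt ℝ s x) : DifferentiableAt ℝ (fun y => Z y (s y)) x ∧
    ∀ u, fderiv ℝ (fun y => Z y (s y)) x u = fderiv ℝ Z x u (s x) + Z x (fderiv ℝ s x u) := by
  let R : En →L[ℝ] (Sp →L[ℝ] Sp) := ContinuousLinearMap.restrictScalarsL ℂ Sp Sp ℝ ℝ
  have h1 : HasFDerivAt (fun y => R (Z y)) (R.comp (fderiv ℝ Z x)) x :=
    R.hasFDerivAt.comp x hZ.hasFDerivAt
  have h2 := h1.clm_apply hs.hasFDerivAt
  refine ⟨h2.differentiableAt, fun u => ?_⟩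
  have h3 := congrArg (fun L => L u) h2.fderiv
  refine Eq.trans h3 ?_
  simp only [add_apply, ContinuousLinearMap.comp_apply, ContinuousLinearMap.flip_apply]
  rw [add_comm]
  rfl

variable {D : Data} (Q : Quat D)

/-- the operator applied twice -/
theorem weitz {Z : R4 → En} (hZ : ContDiff ℝ 1 Z) {A : R4 → R4 →L[ℝ] ℝ} {ψ : R4 → Sp}
    (hA : ContDiff ℝ 1 A) (hψ : ContDiff ℝ 2 ψ) (hD : ∀ x, Q.dirac A ψ x + Z x (ψ x) = 0) (x : R4) :
    ∑ a, cov A (fun y => cov A ψ y (Q.b a y)) x (Q.b a x) =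
      -(∑ k, (Q.Fh A x k : ℂ) • pau k (ψ x)) -
      lt (fun c a => sigs c (sig a (cov A ψ x (brk Q c a x)))) -
      ∑ c, sigs c (fderiv ℝ Z x (Q.b c x) (ψ x) + Z x (cov A ψ x (Q.b c x))) := by
  have hb : ∀ a, ContDiff ℝ 1 (Q.b a) := fun a => (Q.b_smooth a).of_le (by simp)
  set H : Fin 4 → Fin 4 → Sp := fun c a => cov A (fun y => cov A ψ y (Q.b a y)) x (Q.b c x) with hH
  -- differentiate the equation
  have h1 : ∀ c, ∑ a, sig a (H c a) =
      -(fderiv ℝ Z x (Q.b c x) (ψ x) + Z x (cov A ψ x (Q.b c x))) := by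
    intro c
    have hZs := fderiv_op (hZ.differentiable one_ne_zero x) (hψ.differentiable two_ne_zero x)
    have hs : ∀ a, DifferentiableAt ℝ (fun y => sig a (cov A ψ y (Q.b a y))) x ∧
        ∀ u, fderiv ℝ (fun y => sig a (cov A ψ y (Q.b a y))) x u =
          sig a (fderiv ℝ (fun y => cov A ψ y (Q.b a y)) x u) := by
      intro a
      have h2 := fderiv_op (Z := fun _ => sig a) (differentiableAt_const _)
        (hasFDerivAt_cov hA hψ (hb a) x).1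
      refine ⟨h2.1, fun u => ?_⟩
      rw [h2.2 u, fderiv_const_apply]
      simp
    have h3 : (fun y => ∑ a, sig a (cov A ψ y (Q.b a y)) + Z y (ψ y)) = fun _ => 0 := by
      funext y
      exact hD y
    have h4 : fderiv ℝ (fun y => ∑ a, sig a (cov A ψ y (Q.b a y)) + Z y (ψ y)) x (Q.b c x) = 0 := by
      rw [h3, fderiv_const_apply]
      simp
    have hsum : DifferentiableAt ℝ (fun y => ∑ a, sig a (cov A ψ y (Q.b a y))) x :=
      DifferentiableAt.fun_sum fun a _ => (hs a).1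
    rw [fderiv_fun_add hsum hZs.1, add_apply, hZs.2, fderiv_fun_sum fun a _ => (hs a).1,
      sum_apply] at h4
    have h5 : ∑ a, sig a (cov A ψ x (Q.b a x)) + Z x (ψ x) = 0 := hD x
    have h6 : ∑ a, sig a (H c a) = ∑ a, fderiv ℝ (fun y => sig a (cov A ψ y (Q.b a y))) x (Q.b c x) -
        (Complex.I * (A x (Q.b c x) : ℂ)) • ∑ a, sig a (cov A ψ x (Q.b a x)) := by
      rw [Finset.smul_sum, ← Finset.sum_sub_distrib]
      refine Finset.sum_congr rfl fun a _ => ?_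
      rw [(hs a).2, hH]
      simp only
      rw [cov, map_sub, map_smul]
    have h7 : ∑ a, sig a (cov A ψ x (Q.b a x)) = -Z x (ψ x) := eq_neg_of_add_eq_zero_left h5
    have h8 : ∑ a, fderiv ℝ (fun y => sig a (cov A ψ y (Q.b a y))) x (Q.b c x) =
        -(fderiv ℝ Z x (Q.b c x) (ψ x) + Z x (fderiv ℝ ψ x (Q.b c x))) :=
      eq_neg_of_add_eq_zero_left h4
    rw [h6, h7, h8, cov, map_sub, map_smul]
    module
  have h2 : ∑ c, sigs c (∑ a, sig a (H c a)) =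
      -∑ c, sigs c (fderiv ℝ Z x (Q.b c x) (ψ x) + Z x (cov A ψ x (Q.b c x))) := by
    rw [← Finset.sum_neg_distrib]
    refine Finset.sum_congr rfl fun c _ => ?_
    rw [h1 c, map_neg]
  rw [cliff] at h2
  have h3 : ∀ c a, H c a - H a c = cov A ψ x (brk Q c a x) +
      (-(Complex.I * (fr (fun a => Q.b a x) (fun u v => dd A x u v) c a : ℂ))) • ψ x := by
    intro c a
    exact comm_cov hA hψ (hb a) (hb c) x
  have h4 : lt (fun c a => sigs c (sig a (H c a - H a c))) =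
      lt (fun c a => sigs c (sig a (cov A ψ x (brk Q c a x)))) +
        ∑ k, (Q.Fh A x k : ℂ) • pau k (ψ x) := by
    rw [Quat.Fh, ← curvT (fr (fun a => Q.b a x) (fun u v => dd A x u v)), ← lt_add]
    · congr 1
      funext c a
      rw [h3, map_add, map_add]
    · intro a c
      simp only [fr, dd_apply]
      ring
  rw [h4] at h2
  have h5 : ∑ a, H a a = -(∑ k, (Q.Fh A x k : ℂ) • pau k (ψ x)) -
      lt (fun c a => sigs c (sig a (cov A ψ x (brk Q c a x)))) -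
      ∑ c, sigs c (fderiv ℝ Z x (Q.b c x) (ψ x) + Z x (cov A ψ x (Q.b c x))) := by
    rw [← add_eq_zero_iff_eq_neg] at h2
    rw [← sub_eq_zero, ← h2]
    abel
  exact h5

theorem sigs_le : ∃ K : ℝ, 0 ≤ K ∧ (∀ c (v : Sp), ‖sigs c v‖ ≤ K * ‖v‖) ∧
    ∀ c (v : Sp), ‖sig c v‖ ≤ K * ‖v‖ := by
  refine ⟨∑ c, (‖sigs c‖ + ‖sig c‖), Finset.sum_nonneg fun _ _ => by positivity, fun c v => ?_,
    fun c v => ?_⟩
  · refine ((sigs c).le_opNorm v).trans (mul_le_mul_of_nonneg_right ?_ (norm_nonneg _))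
    refine le_trans (le_add_of_nonneg_right (norm_nonneg _)) (Finset.single_le_sum
      (f := fun c => ‖sigs c‖ + ‖sig c‖) (fun _ _ => by positivity) (Finset.mem_univ c))
  · refine ((sig c).le_opNorm v).trans (mul_le_mul_of_nonneg_right ?_ (norm_nonneg _))
    refine le_trans (le_add_of_nonneg_left (norm_nonneg _)) (Finset.single_le_sum
      (f := fun c => ‖sigs c‖ + ‖sig c‖) (fun _ _ => by positivity) (Finset.mem_univ c))

theorem err1 : ∃ C : ℝ, 0 ≤ C ∧ ∀ (A : R4 → R4 →L[ℝ] ℝ) (ψ : R4 → Sp) (x : R4),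
    ‖lt (fun c a => sigs c (sig a (cov A ψ x (brk Q c a x))))‖ ≤
      C * ∑ d, ‖cov A ψ x (Q.b d x)‖ := by
  obtain ⟨CL, hCL0, hCL⟩ := coef_bdd Q
  obtain ⟨K, hK, h0, h1⟩ := sigs_le
  refine ⟨6 * (K * (K * CL)), by positivity, fun A ψ x => ?_⟩
  have h2 : ∀ c a, ‖sigs c (sig a (cov A ψ x (brk Q c a x)))‖ ≤
      K * (K * (CL * ∑ d, ‖cov A ψ x (Q.b d x)‖)) := by
    intro c a
    refine (h0 _ _).trans (mul_le_mul_of_nonneg_left ?_ hK)
    refine (h1 _ _).trans (mul_le_mul_of_nonneg_left ?_ hK)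
    exact cov_bound Q x _ fun d => hCL c a d x
  refine (lt_norm h2).trans (le_of_eq ?_)
  ring

theorem err2 {Z : R4 → En} (hZ : ContDiff ℝ 1 Z) (hZp : Per4 Z) : ∃ C : ℝ, 0 ≤ C ∧
    ∀ (A : R4 → R4 →L[ℝ] ℝ) (ψ : R4 → Sp) (x : R4),
    ‖∑ c, sigs c (fderiv ℝ Z x (Q.b c x) (ψ x) + Z x (cov A ψ x (Q.b c x)))‖ ≤
      C * ∑ d, ‖cov A ψ x (Q.b d x)‖ + C * ‖ψ x‖ := by
  obtain ⟨K, hK, h0, h1⟩ := sigs_le
  obtain ⟨CZ, hCZ0, hCZ⟩ := bdd_per hZ.continuous hZp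
  have hdZ : ∀ c, ∃ C, 0 ≤ C ∧ ∀ x, ‖fderiv ℝ Z x (Q.b c x)‖ ≤ C := by
    intro c
    refine bdd_per (g := fun x => fderiv ℝ Z x (Q.b c x)) ?_ ?_
    · exact (hZ.continuous_fderiv one_ne_zero).clm_apply (Q.b_smooth c).continuous
    · intro n x
      simp only [per_fderiv hZp n x, Q.b_per c n x]
  choose Cd hCd0 hCd using hdZ
  have hK2n : 0 ≤ ∑ c, Cd c := Finset.sum_nonneg fun c _ => hCd0 c
  refine ⟨4 * (K * ((∑ c, Cd c) + CZ)), by positivity, fun A ψ x => ?_⟩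
  have hS : 0 ≤ ∑ d, ‖cov A ψ x (Q.b d x)‖ := Finset.sum_nonneg fun _ _ => norm_nonneg _
  have h2 : ∀ c, ‖sigs c (fderiv ℝ Z x (Q.b c x) (ψ x) + Z x (cov A ψ x (Q.b c x)))‖ ≤
      K * ((∑ c, Cd c) * ‖ψ x‖ + CZ * ∑ d, ‖cov A ψ x (Q.b d x)‖) := by
    intro c
    refine (h0 _ _).trans (mul_le_mul_of_nonneg_left ?_ hK)
    refine (norm_add_le _ _).trans (add_le_add ?_ ?_)
    · refine ((fderiv ℝ Z x (Q.b c x)).le_opNorm _).trans
        (mul_le_mul_of_nonneg_right ?_ (norm_nonneg _))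
      exact (hCd c x).trans (Finset.single_le_sum (f := fun c => Cd c) (fun c _ => hCd0 c)
        (Finset.mem_univ c))
    · refine ((Z x).le_opNorm _).trans ?_
      refine mul_le_mul (hCZ x) ?_ (norm_nonneg _) hCZ0
      exact Finset.single_le_sum (f := fun d => ‖cov A ψ x (Q.b d x)‖)
        (fun _ _ => norm_nonneg _) (Finset.mem_univ c)
  refine (norm_sum_le _ _).trans ((Finset.sum_le_sum fun c _ => h2 c).trans ?_)
  rw [Finset.sum_const, Finset.card_univ, Fintype.card_fin, nsmul_eq_mul]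
  have h3 : 0 ≤ K * (∑ c, Cd c) * ∑ d, ‖cov A ψ x (Q.b d x)‖ := by positivity
  have h4 : 0 ≤ K * CZ * ‖ψ x‖ := by positivity
  push_cast
  nlinarith

/-- the final arithmetic -/
theorem arith {p S1 F R1 R2 C1 C2 e1 e2 : ℝ} {n : Fin 4 → ℝ} (hp : 0 ≤ p) (hn : ∀ a, 0 ≤ n a)
    (hC1 : 0 ≤ C1) (hC2 : 0 ≤ C2) (hS : S1 = ∑ a, n a) (h1 : R1 ≤ p * e1) (h2 : R2 ≤ p * e2)
    (he1 : e1 ≤ C1 * S1) (he2 : e2 ≤ C2 * S1 + C2 * p) :
    -F - (C2 + (C1 + C2) ^ 2) * p ^ 2 ≤ -F - R1 - R2 + ∑ a, n a ^ 2 := by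
  have h3 : R1 + R2 ≤ (C1 + C2) * p * S1 + C2 * p ^ 2 := by
    have : p * (e1 + e2) ≤ p * ((C1 + C2) * S1 + C2 * p) :=
      mul_le_mul_of_nonneg_left (by linarith) hp
    linarith
  have h4 : (C1 + C2) * p * S1 ≤ ∑ a, n a ^ 2 + (C1 + C2) ^ 2 * p ^ 2 := by
    have h5 : ∀ a, (C1 + C2) * p * n a ≤ n a ^ 2 + ((C1 + C2) * p) ^ 2 / 4 := by
      intro a
      nlinarith [sq_nonneg (n a - (C1 + C2) * p / 2)]
    calc (C1 + C2) * p * S1 = ∑ a, (C1 + C2) * p * n a := by rw [hS, Finset.mul_sum]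
      _ ≤ ∑ a, (n a ^ 2 + ((C1 + C2) * p) ^ 2 / 4) := Finset.sum_le_sum fun a _ => h5 a
      _ = _ := by
          rw [Finset.sum_add_distrib]
          simp
          ring
  linarith

/-- KEY: the pointwise inequality -/
theorem key {Z : R4 → En} (hZ : ContDiff ℝ 1 Z) (hZp : Per4 Z) : ∃ C : ℝ, 0 ≤ C ∧
    ∀ (A : R4 → R4 →L[ℝ] ℝ) (ψ : R4 → Sp), ContDiff ℝ 1 A → ContDiff ℝ 2 ψ →
    (∀ x, Q.dirac A ψ x + Z x (ψ x) = 0) → ∀ x,
    -(∑ k, Q.Fh A x k * sp (ψ x) k) - C * ‖ψ x‖ ^ 2 ≤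
      (1 / 2) * ∑ a, fderiv ℝ (fun y => fderiv ℝ (fun z => ‖ψ z‖ ^ 2) y (Q.b a y)) x (Q.b a x) := by
  obtain ⟨C1, hC1, he1⟩ := err1 Q
  obtain ⟨C2, hC2, he2⟩ := err2 Q hZ hZp
  refine ⟨C2 + (C1 + C2) ^ 2, by positivity, fun A ψ hA hψ hD x => ?_⟩
  have hb : ∀ a, ContDiff ℝ 1 (Q.b a) := fun a => (Q.b_smooth a).of_le (by simp)
  have hw := weitz Q hZ hA hψ hD x
  have hsum : (1 / 2) * ∑ a, fderiv ℝ (fun y => fderiv ℝ (fun z => ‖ψ z‖ ^ 2) y (Q.b a y)) x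
      (Q.b a x) = (inner ℂ (ψ x) (∑ a, cov A (fun y => cov A ψ y (Q.b a y)) x (Q.b a x))).re +
        ∑ a, ‖cov A ψ x (Q.b a x)‖ ^ 2 := by
    rw [inner_sum, Complex.re_sum, ← Finset.sum_add_distrib, Finset.mul_sum]
    refine Finset.sum_congr rfl fun a _ => ?_
    rw [fderiv2_normsq hA hψ (hb a) x]
    ring
  have hF : (inner ℂ (ψ x) (∑ k, (Q.Fh A x k : ℂ) • pau k (ψ x))).re =
      ∑ k, Q.Fh A x k * sp (ψ x) k := by
    rw [inner_sum, Complex.re_sum]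
    refine Finset.sum_congr rfl fun k _ => ?_
    rw [inner_smul_right, Complex.re_ofReal_mul, sp]
  rw [hsum, hw, inner_sub_right, inner_sub_right, inner_neg_right, Complex.sub_re, Complex.sub_re,
    Complex.neg_re, hF]
  exact arith (norm_nonneg _) (fun _ => norm_nonneg _) hC1 hC2 rfl
    ((Complex.re_le_norm _).trans (norm_inner_le_norm _ _))
    ((Complex.re_le_norm _).trans (norm_inner_le_norm _ _)) (he1 A ψ x) (he2 A ψ x)

end Vale.Agent.P247.H332.E6
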