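import Vale.Agent.P247.H332.E6.Frame

/-!
# E6 : the maximum principle for the Seiberg-Witten system
-/

open scoped ContDiff Topology
open Set MeasureTheory Filter Metric

noncomputable section

namespace Vale.Agent.P247.H332.E6

open Vale.Agent.P247.H74 Vale.Agent.P247.H574 Vale.Agent.P247.H647

variable {D : Data} (Q : Quat D)

theorem two_le_inf : (2 : WithTop ℕ∞) ≤ ∞ :=
  show ((2 : ℕ∞) : WithTop ℕ∞) ≤ ((⊤ : ℕ∞) : WithTop ℕ∞) from WithTop.coe_le_coe.2 le_top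

/-- second derivative along a frame field -/
def DD (a : Fin 4) (F : R4 → ℝ) (x : R4) : ℝ :=
  fderiv ℝ (fun y => fderiv ℝ F y (Q.b a y)) x (Q.b a x)

theorem DD_aux (a : Fin 4) {F : R4 → ℝ} (hF : ContDiff ℝ 2 F) (x : R4) :
    DifferentiableAt ℝ (fun y => fderiv ℝ F y (Q.b a y)) x := by
  have hF2 : Differentiable ℝ (fderiv ℝ F) :=
    (hF.fderiv_right (m := 1) (by norm_num)).differentiable one_ne_zero
  exact (hF2 x).clm_apply ((Q.b_smooth a).differentiable (by simp) x)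

theorem DD_add (a : Fin 4) {F G : R4 → ℝ} (hF : ContDiff ℝ 2 F) (hG : ContDiff ℝ 2 G) (x : R4) :
    DD Q a (fun y => F y + G y) x = DD Q a F x + DD Q a G x := by
  have h0 : (fun y => fderiv ℝ (fun y => F y + G y) y (Q.b a y)) =
      fun y => fderiv ℝ F y (Q.b a y) + fderiv ℝ G y (Q.b a y) := by
    funext y
    rw [fderiv_fun_add (hF.differentiable two_ne_zero y) (hG.differentiable two_ne_zero y)]
    rfl
  rw [DD, h0, fderiv_fun_add (DD_aux Q a hF x) (DD_aux Q a hG x)]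
  rfl

theorem DD_const_mul (a : Fin 4) (c : ℝ) {F : R4 → ℝ} (hF : ContDiff ℝ 2 F) (x : R4) :
    DD Q a (fun y => c * F y) x = c * DD Q a F x := by
  have h0 : (fun y => fderiv ℝ (fun y => c * F y) y (Q.b a y)) =
      fun y => c * fderiv ℝ F y (Q.b a y) := by
    funext y
    rw [fderiv_const_mul (hF.differentiable two_ne_zero y)]
    rfl
  rw [DD, h0, fderiv_const_mul (DD_aux Q a hF x)]
  rfl

theorem DD_const (a : Fin 4) (c : ℝ) (x : R4) : DD Q a (fun _ => c) x = 0 := by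
  have h0 : (fun y => fderiv ℝ (fun _ : R4 => c) y (Q.b a y)) = fun _ => 0 := by
    funext y
    rw [fderiv_const_apply]
    rfl
  rw [DD, h0, fderiv_const_apply]
  rfl

theorem DD_sum (a : Fin 4) {ι : Type*} (s : Finset ι) {F : ι → R4 → ℝ}
    (hF : ∀ i, ContDiff ℝ 2 (F i)) (x : R4) :
    DD Q a (fun y => ∑ i ∈ s, F i y) x = ∑ i ∈ s, DD Q a (F i) x := by
  classical
  induction s using Finset.induction_on with
  | empty => simpa using DD_const Q a 0 x
  | insert i s hi ih =>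
    have h1 : (fun y => ∑ j ∈ insert i s, F j y) = fun y => F i y + ∑ j ∈ s, F j y := by
      funext y
      rw [Finset.sum_insert hi]
    rw [h1, DD_add Q a (hF i) (ContDiff.sum fun j _ => hF j), Finset.sum_insert hi, ih]

theorem DD_bdd (a : Fin 4) {F : R4 → ℝ} (hF : ContDiff ℝ 2 F) (hp : Per4 F) :
    ∃ C, 0 ≤ C ∧ ∀ x, |DD Q a F x| ≤ C := by
  have hb : ContDiff ℝ 1 (Q.b a) := (Q.b_smooth a).of_le (by simp)
  have hF1 : ContDiff ℝ 1 (fun y => fderiv ℝ F y (Q.b a y)) :=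
    (hF.fderiv_right (m := 1) (by norm_num)).clm_apply hb
  have hp1 : Per4 (fun y => fderiv ℝ F y (Q.b a y)) := by
    intro n x
    simp only [per_fderiv hp n x, Q.b_per a n x]
  refine bdd_per (g := DD Q a F) ?_ ?_
  · exact (hF1.continuous_fderiv one_ne_zero).clm_apply hb.continuous
  · intro n x
    simp only [DD, per_fderiv hp1 n x, Q.b_per a n x]

/-- `|T⁻¹ v|²` -/
def qv (v : Fin 3 → ℝ) (x : R4) : ℝ := ∑ k, Q.dv x v k ^ 2

theorem qv_eq (v : Fin 3 → ℝ) : qv Q v = fun x => ∑ p : Fin 3 × Fin 3,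
    (v p.1 * v p.2) * ∑ k, Ti Q k p.1 x * Ti Q k p.2 x := by
  funext x
  rw [qv, Fintype.sum_prod_type]
  simp only [dv_eq, Fin.sum_univ_three]
  ring

theorem qv_smooth (v : Fin 3 → ℝ) : ContDiff ℝ 2 (qv Q v) := by
  rw [qv_eq]
  refine ContDiff.sum fun p _ => contDiff_const.mul (ContDiff.sum fun k _ => ?_)
  exact ((Ti_smooth Q k p.1).mul (Ti_smooth Q k p.2)).of_le two_le_inf

/-- the second derivatives of `|T⁻¹ v|²` are bounded by `C |v|²` -/
theorem DD_qv : ∃ C, 0 ≤ C ∧ ∀ v x, ∑ a, DD Q a (qv Q v) x ≤ C * len v ^ 2 := by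
  have hP : ∀ p : Fin 3 × Fin 3, ContDiff ℝ 2 (fun x => ∑ k, Ti Q k p.1 x * Ti Q k p.2 x) :=
    fun p => ContDiff.sum fun k _ => ((Ti_smooth Q k p.1).mul (Ti_smooth Q k p.2)).of_le two_le_inf
  have h1 : ∀ (a : Fin 4) (p : Fin 3 × Fin 3), ∃ C, 0 ≤ C ∧
      ∀ x, |DD Q a (fun x => ∑ k, Ti Q k p.1 x * Ti Q k p.2 x) x| ≤ C := by
    intro a p
    refine DD_bdd Q a (hP p) ?_
    intro n x
    simp only [Ti_per Q _ _ n x]
  choose C hC0 hC using h1
  refine ⟨∑ a, ∑ p, C a p, Finset.sum_nonneg fun a _ => Finset.sum_nonneg fun p _ => hC0 a p,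
    fun v x => ?_⟩
  rw [Finset.sum_mul]
  refine Finset.sum_le_sum fun a _ => ?_
  rw [qv_eq, DD_sum Q a _ (fun p => contDiff_const.mul (hP p)), Finset.sum_mul]
  refine Finset.sum_le_sum fun p _ => ?_
  rw [DD_const_mul Q a _ (hP p)]
  refine (le_abs_self _).trans ?_
  rw [abs_mul, abs_mul, mul_comm]
  have h2 : |v p.1| * |v p.2| ≤ len v ^ 2 := by
    rw [sq]
    exact mul_le_mul (abs_le_len v _) (abs_le_len v _) (abs_nonneg _) (len_nonneg _)
  exact mul_le_mul (hC a p x) h2 (by positivity) (hC0 a p)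

/-! ### the curvature term -/

/-- the curvature equation with a factor `g` -/
def CurvEq (A : R4 → R4 →L[ℝ] ℝ) (ψ : R4 → Sp) (v : Fin 3 → ℝ) (g : R4 → ℝ) : Prop :=
  ∀ x j, w4 (fun p q => dd A x p q) (fun p q => (tri D j).val x p q) =
    v j - (1 / 2) * (g x * ∑ k, Q.T x j k * (inner ℂ (ψ x) (pau k (ψ x))).re)

theorem Fh_eq (hFRM : FRM_statement) {A : R4 → R4 →L[ℝ] ℝ} {ψ : R4 → Sp} {v : Fin 3 → ℝ}
    {g : R4 → ℝ} (h : CurvEq Q A ψ v g) (x : R4) (k : Fin 3) :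
    Q.Fh A x k = Q.dv x v k - (1 / 2) * (g x * sp (ψ x) k) := by
  have h1 := (hFRM D Q x).2.1 (dd A x) (fun p => by rw [dd_apply, sub_self])
  have h2 : (Q.T x).mulVec (Q.Fh A x) = (Q.T x).mulVec
      (fun k => Q.dv x v k - (1 / 2) * (g x * sp (ψ x) k)) := by
    funext j
    have h3 := h1 j
    rw [h x j] at h3
    have h4 : (Q.T x).mulVec (Q.dv x v) j = v j := congrFun (T_dv Q x v) j
    rw [Matrix.mulVec, dotProduct] at h4 ⊢
    rw [Matrix.mulVec, dotProduct]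
    have h5 : ∑ k, Q.T x j k * Q.Fh A x k =
        ∑ k, Q.T x j k * hat (fr (fun a => Q.b a x) fun p q => dd A x p q) k := rfl
    rw [h5, ← h3, ← h4]
    simp only [mul_sub, Finset.sum_sub_distrib]
    congr 1
    simp only [Finset.mul_sum, sp]
    refine Finset.sum_congr rfl fun k _ => ?_
    ring
  have h3 := Matrix.mulVec_injective_iff_isUnit.2
    ((Matrix.isUnit_iff_isUnit_det _).2 (isUnit_iff_ne_zero.2 (Q.T_det x))) h2
  exact congrFun h3 k

theorem curv_le (hFRM : FRM_statement) {A : R4 → R4 →L[ℝ] ℝ} {ψ : R4 → Sp} {v : Fin 3 → ℝ}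
    {g : R4 → ℝ} (h : CurvEq Q A ψ v g) (x : R4) :
    (1 / 2) * ‖ψ x‖ ^ 2 * (g x * ‖ψ x‖ ^ 2 - Q.rho v x) ≤ -(∑ k, Q.Fh A x k * sp (ψ x) k) := by
  have h1 : ∑ k, Q.Fh A x k * sp (ψ x) k =
      ∑ k, Q.dv x v k * sp (ψ x) k - (1 / 2) * g x * (‖ψ x‖ ^ 2) ^ 2 := by
    rw [← sp_sq, Finset.mul_sum, ← Finset.sum_sub_distrib]
    refine Finset.sum_congr rfl fun k _ => ?_
    rw [Fh_eq Q hFRM h]
    ring
  have h2 : ∑ k, Q.dv x v k * sp (ψ x) k ≤ len (Q.dv x v) * ‖ψ x‖ ^ 2 := by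
    have h3 := Finset.sum_mul_sq_le_sq_mul_sq Finset.univ (Q.dv x v) (sp (ψ x))
    rw [sp_sq, ← len_sq] at h3
    have h4 : 0 ≤ len (Q.dv x v) * ‖ψ x‖ ^ 2 := mul_nonneg (len_nonneg _) (sq_nonneg _)
    refine le_of_abs_le (abs_le_of_sq_le_sq ?_ h4)
    rw [mul_pow]
    exact h3
  rw [h1, Quat.rho]
  nlinarith

/-- MAX -/
theorem MAX (hFRM : FRM_statement) : MAX_statement := by
  intro D Q Z hZ hZp
  obtain ⟨C, hC, hkey⟩ := key Q (hZ.of_le (by simp) : ContDiff ℝ 1 Z) hZp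
  obtain ⟨C3, hC3, hDD⟩ := DD_qv Q
  obtain ⟨K, hK, hlen⟩ := len_rho Q
  refine ⟨2 * (C + C3 * K ^ 2) + 1, by positivity, fun A ψ v hSW => ?_⟩
  have hA1 : ContDiff ℝ 1 A := hSW.A_smooth.of_le (by simp)
  have hψ2 : ContDiff ℝ 2 ψ := hSW.ψ_smooth.of_le two_le_inf
  have hcurv : CurvEq Q A ψ v fun _ => 1 := by
    intro x j
    rw [hSW.curv x j, one_mul]
  have hn : Per4 fun x => ‖ψ x‖ ^ 2 := by
    intro n x
    simp only [hSW.ψ_quasi n x, norm_smul]
    have h1 : ‖Complex.exp (2 * Real.pi * Complex.I * n 0 * x 1)‖ = 1 := by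
      have : (2 * Real.pi * Complex.I * n 0 * x 1 : ℂ) = ((2 * Real.pi * n 0 * x 1 : ℝ) : ℂ) *
          Complex.I := by
        push_cast
        ring
      rw [this, Complex.norm_exp_ofReal_mul_I]
    rw [h1, one_mul]
  have hnc : Continuous fun x => ‖ψ x‖ ^ 2 := (hψ2.continuous.norm).pow 2
  obtain ⟨x0, hx0⟩ := max_per (g := fun x => ‖ψ x‖ ^ 2 - Q.rho v x) (hnc.sub (rho_cont Q v))
    (fun n x => by
      have h1 := hn n x
      simp only at h1 ⊢
      rw [h1, rho_per Q v n x])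
  -- it suffices to bound the maximum
  suffices hmain : ‖ψ x0‖ ^ 2 - Q.rho v x0 ≤ 2 * (C + C3 * K ^ 2) by
    intro x
    have := hx0 x
    linarith
  by_contra hneg
  rw [not_le] at hneg
  have hpos : 0 < ‖ψ x0‖ ^ 2 - Q.rho v x0 := lt_of_le_of_lt (by positivity) hneg
  have hrn := rho_nonneg Q v x0
  have hψpos : 0 < ‖ψ x0‖ ^ 2 := by linarith
  have hnorm2 : ContDiff ℝ 2 fun x => ‖ψ x‖ ^ 2 := hψ2.norm_sq ℂ
  have hq2 : ContDiff ℝ 2 (qv Q v) := qv_smooth Q v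
  -- the second derivatives at the maximum
  have hbound : (1 / 2) * ∑ a, DD Q a (fun x => ‖ψ x‖ ^ 2) x0 ≤ C3 * K ^ 2 * Q.rho v x0 := by
    by_cases ht : Q.rho v x0 = 0
    · -- `v = 0`
      have hv0 : len v = 0 := le_antisymm (by
        have := (hlen v x0).1
        rw [ht, mul_zero] at this
        exact this) (len_nonneg v)
      have hrho0 : ∀ x, Q.rho v x = 0 := fun x => le_antisymm (by
        have := (hlen v x).2
        rw [hv0, mul_zero] at this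
        exact this) (rho_nonneg Q v x)
      have h1 : ∀ a, DD Q a (fun x => ‖ψ x‖ ^ 2) x0 ≤ 0 := fun a =>
        second_le_field hnorm2 ((Q.b_smooth a).of_le (by simp)) fun x => by
          have := hx0 x
          simp only [hrho0, sub_zero] at this
          exact this
      rw [ht, mul_zero]
      have : ∑ a, DD Q a (fun x => ‖ψ x‖ ^ 2) x0 ≤ 0 := Finset.sum_nonpos fun a _ => h1 a
      linarith
    · set t := Q.rho v x0 with htdef
      have htp : 0 < t := lt_of_le_of_ne hrn (Ne.symm ht)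
      have h1 : ∀ a, DD Q a (fun x => ‖ψ x‖ ^ 2 + (-(2 / t)) * qv Q v x) x0 ≤ 0 := by
        intro a
        refine second_le_field (hnorm2.add (contDiff_const.mul hq2))
          ((Q.b_smooth a).of_le (by simp)) fun x => ?_
        have h2 := hx0 x
        have h3 : Q.rho v x ^ 2 = 4 * qv Q v x := rho_sq Q v x
        have h4 : t ^ 2 = 4 * qv Q v x0 := rho_sq Q v x0
        have h5 : qv Q v x = Q.rho v x ^ 2 / 4 := by linarith
        have h6 : qv Q v x0 = t ^ 2 / 4 := by linarith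
        rw [h5, h6]
        have h7 : -(2 / t) * (Q.rho v x ^ 2 / 4) = -(Q.rho v x ^ 2 / (2 * t)) := by
          field_simp
          ring
        have h8 : -(2 / t) * (t ^ 2 / 4) = -(t / 2) := by
          field_simp
          ring
        have h9 : Q.rho v x ≤ Q.rho v x ^ 2 / (2 * t) + t / 2 := by
          have : Q.rho v x ^ 2 / (2 * t) + t / 2 - Q.rho v x = (Q.rho v x - t) ^ 2 / (2 * t) := by
            field_simp
            ring
          have h10 : 0 ≤ (Q.rho v x - t) ^ 2 / (2 * t) := by positivity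
          linarith
        rw [h7, h8]
        linarith
      have h2 : ∀ a, DD Q a (fun x => ‖ψ x‖ ^ 2) x0 ≤ (2 / t) * DD Q a (qv Q v) x0 := by
        intro a
        have h3 := h1 a
        rw [DD_add Q a hnorm2 (contDiff_const.mul hq2), DD_const_mul Q a _ hq2] at h3
        linarith
      have h3 : ∑ a, DD Q a (fun x => ‖ψ x‖ ^ 2) x0 ≤ (2 / t) * (C3 * len v ^ 2) := by
        refine (Finset.sum_le_sum fun a _ => h2 a).trans ?_
        rw [← Finset.mul_sum]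
        exact mul_le_mul_of_nonneg_left (hDD v x0) (by positivity)
      have h4 : len v ^ 2 ≤ (K * t) ^ 2 := pow_le_pow_left₀ (len_nonneg v) (hlen v x0).1 2
      have h5 : (2 / t) * (C3 * len v ^ 2) ≤ (2 / t) * (C3 * (K * t) ^ 2) := by
        gcongr
      have h6 : (2 / t) * (C3 * (K * t) ^ 2) = 2 * (C3 * K ^ 2 * t) := by
        field_simp
      linarith
  have h1 := hkey A ψ hA1 hψ2 hSW.dirac x0
  have h2 := curv_le Q hFRM hcurv x0
  rw [one_mul] at h2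
  have h3 : (1 / 2) * ∑ a, DD Q a (fun x => ‖ψ x‖ ^ 2) x0 = (1 / 2) * ∑ a,
      fderiv ℝ (fun y => fderiv ℝ (fun z => ‖ψ z‖ ^ 2) y (Q.b a y)) x0 (Q.b a x0) := rfl
  rw [h3] at hbound
  have h4 : (1 / 2) * ‖ψ x0‖ ^ 2 * (‖ψ x0‖ ^ 2 - Q.rho v x0) ≤ (C + C3 * K ^ 2) * ‖ψ x0‖ ^ 2 := by
    have h5 : C3 * K ^ 2 * Q.rho v x0 ≤ C3 * K ^ 2 * ‖ψ x0‖ ^ 2 :=
      mul_le_mul_of_nonneg_left (by linarith) (by positivity)
    linarith
  have h5 : ‖ψ x0‖ ^ 2 * ((‖ψ x0‖ ^ 2 - Q.rho v x0) - 2 * (C + C3 * K ^ 2)) ≤ 0 := by linarith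
  have h6 : 0 < ‖ψ x0‖ ^ 2 * ((‖ψ x0‖ ^ 2 - Q.rho v x0) - 2 * (C + C3 * K ^ 2)) :=
    mul_pos hψpos (by linarith)
  linarith

end Vale.Agent.P247.H332.E6
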