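import Vale.Agent.P247.H332.E6.Key2

/-!
# E6 : the maximum principle
-/

open scoped ContDiff Topology
open Set MeasureTheory Filter Metric

noncomputable section

namespace Vale.Agent.P247.H332.E6

open Vale.Agent.P247.H74 Vale.Agent.P247.H574 Vale.Agent.P247.H647

/-- second derivative test, necessary condition -/
theorem second_le {h : ℝ → ℝ} (hm : ∀ t, h t ≤ h 0) (h1 : deriv h 0 = 0)
    (hc : ContinuousAt h 0) : deriv (deriv h) 0 ≤ 0 := by
  by_contra hneg
  rw [not_le] at hneg
  have h2 := isLocalMin_of_deriv_deriv_pos hneg h1 hc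
  have h3 : h =ᶠ[𝓝 0] fun _ => h 0 := by
    filter_upwards [h2] with t ht
    exact le_antisymm (hm t) ht
  have h4 : deriv h =ᶠ[𝓝 0] deriv (fun _ => h 0) := h3.deriv
  have h5 : deriv (deriv h) 0 = deriv (deriv fun _ : ℝ => h 0) 0 := h4.deriv_eq
  rw [h5] at hneg
  simp at hneg

/-- at a maximum point the second derivative along a vector field is nonpositive -/
theorem second_le_field {F : R4 → ℝ} (hF : ContDiff ℝ 2 F) {b : R4 → R4} (hb : ContDiff ℝ 1 b)
    {x0 : R4} (hmax : ∀ x, F x ≤ F x0) :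
    fderiv ℝ (fun y => fderiv ℝ F y (b y)) x0 (b x0) ≤ 0 := by
  have hFd : Differentiable ℝ F := hF.differentiable two_ne_zero
  have hF2 : Differentiable ℝ (fderiv ℝ F) :=
    (hF.fderiv_right (m := 1) (by norm_num)).differentiable one_ne_zero
  have hcrit : fderiv ℝ F x0 = 0 :=
    IsLocalMax.fderiv_eq_zero (Filter.Eventually.of_forall hmax)
  have h1 : fderiv ℝ (fun y => fderiv ℝ F y (b y)) x0 (b x0) =
      fderiv ℝ (fderiv ℝ F) x0 (b x0) (b x0) := by
    have h2 := (hF2 x0).hasFDerivAt.clm_apply (hb.differentiable one_ne_zero x0).hasFDerivAt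
    rw [h2.fderiv, hcrit]
    simp
  rw [h1]
  set v := b x0
  have hline : ∀ t : ℝ, HasDerivAt (fun t : ℝ => x0 + t • v) v t := by
    intro t
    have := ((hasDerivAt_id t).smul_const v).const_add x0
    simpa using this
  have hd : ∀ t : ℝ, HasDerivAt (fun t : ℝ => F (x0 + t • v)) (fderiv ℝ F (x0 + t • v) v) t :=
    fun t => (hFd _).hasFDerivAt.comp_hasDerivAt t (hline t)
  have hd1 : deriv (fun t : ℝ => F (x0 + t • v)) = fun t => fderiv ℝ F (x0 + t • v) v := by
    funext t
    exact (hd t).deriv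
  have hd2 : HasDerivAt (fun t : ℝ => fderiv ℝ F (x0 + t • v) v)
      (fderiv ℝ (fderiv ℝ F) x0 v v) 0 := by
    have h3 := (hF2 (x0 + (0 : ℝ) • v)).hasFDerivAt.comp_hasDerivAt (0 : ℝ) (hline 0)
    rw [zero_smul, add_zero] at h3
    have h4 := h3.clm_apply (hasDerivAt_const (0 : ℝ) v)
    simpa using h4
  have h5 := second_le (h := fun t : ℝ => F (x0 + t • v)) (fun t => by
    simp only [zero_smul, add_zero]
    exact hmax _) (by
    rw [hd1]
    simp [hcrit]) (hd 0).continuousAt
  rw [hd1, hd2.deriv] at h5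
  exact h5

end Vale.Agent.P247.H332.E6
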