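import Vale.Agent.P247.H332.E6.Main

/-!
# E6 : the maximum principle with a truncated nonlinearity
-/

open scoped ContDiff Topology
open Set MeasureTheory Filter Metric

noncomputable section

namespace Vale.Agent.P247.H332.E6

open Vale.Agent.P247.H74 Vale.Agent.P247.H574 Vale.Agent.P247.H647

variable {D : Data} (Q : Quat D)

theorem per_normsq {ψ : R4 → Sp} (h : QS ψ) : Per4 fun x => ‖ψ x‖ ^ 2 := by
  intro n x
  simp only [h n x, norm_smul]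
  have h1 : ‖Complex.exp (2 * Real.pi * Complex.I * n 0 * x 1)‖ = 1 := by
    have : (2 * Real.pi * Complex.I * n 0 * x 1 : ℂ) = ((2 * Real.pi * n 0 * x 1 : ℝ) : ℂ) *
        Complex.I := by
      push_cast
      ring
    rw [this, Complex.norm_exp_ofReal_mul_I]
  rw [h1, one_mul]

/-- At a maximum point of `|ψ|²`. -/
theorem at_max (hFRM : FRM_statement) {Z : R4 → En} (hZ : ContDiff ℝ ∞ Z) (hZp : Per4 Z) :
    ∃ K : ℝ, 0 < K ∧ ∀ (A : R4 → R4 →L[ℝ] ℝ) (ψ : R4 → Sp) (v : Fin 3 → ℝ) (g : R4 → ℝ),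
    ContDiff ℝ 1 A → ContDiff ℝ 2 ψ → (∀ x, Q.dirac A ψ x + Z x (ψ x) = 0) → CurvEq Q A ψ v g →
    ∀ x0, (∀ x, ‖ψ x‖ ^ 2 ≤ ‖ψ x0‖ ^ 2) → g x0 * ‖ψ x0‖ ^ 2 ≤ K * (1 + len v) := by
  obtain ⟨C, hC, hkey⟩ := key Q (hZ.of_le (by simp) : ContDiff ℝ 1 Z) hZp
  obtain ⟨K, hK, hlen⟩ := len_rho Q
  refine ⟨2 * C + K + 1, by positivity, fun A ψ v g hA hψ hD hcurv x0 hx0 => ?_⟩
  have hl := len_nonneg v
  rcases (sq_nonneg ‖ψ x0‖).eq_or_lt with h0 | h0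
  · rw [← h0, mul_zero]
    positivity
  have h1 := hkey A ψ hA hψ hD x0
  have h2 := curv_le Q hFRM hcurv x0
  have h3 : ∑ a, fderiv ℝ (fun y => fderiv ℝ (fun z => ‖ψ z‖ ^ 2) y (Q.b a y)) x0 (Q.b a x0) ≤ 0 :=
    Finset.sum_nonpos fun a _ =>
      second_le_field (hψ.norm_sq ℂ) ((Q.b_smooth a).of_le (by simp)) hx0
  have h4 : ‖ψ x0‖ ^ 2 * ((g x0 * ‖ψ x0‖ ^ 2 - Q.rho v x0) - 2 * C) ≤ 0 := by linarith
  have h5 : (g x0 * ‖ψ x0‖ ^ 2 - Q.rho v x0) - 2 * C ≤ 0 := by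
    by_contra h
    rw [not_le] at h
    have := mul_pos h0 h
    linarith
  have h6 := (hlen v x0).2
  nlinarith

/-- The truncation disappears: if `G` is a truncation function at level `R2` (`G = 1` on `[0, R2]`
and `t G t ≥ R2` beyond) and `K (1 + |v|) < R2` then `|ψ|² ≤ K (1 + |v|)` everywhere. -/
theorem trunc (hFRM : FRM_statement) {Z : R4 → En} (hZ : ContDiff ℝ ∞ Z) (hZp : Per4 Z) :
    ∃ K : ℝ, 0 < K ∧ ∀ (A : R4 → R4 →L[ℝ] ℝ) (ψ : R4 → Sp) (v : Fin 3 → ℝ) (G : ℝ → ℝ) (R2 : ℝ),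
    ContDiff ℝ 1 A → ContDiff ℝ 2 ψ → QS ψ → (∀ x, Q.dirac A ψ x + Z x (ψ x) = 0) →
    (∀ t, 0 ≤ t → min t R2 ≤ t * G t) →
    CurvEq Q A ψ v (fun x => G (‖ψ x‖ ^ 2)) → K * (1 + len v) < R2 →
    ∀ x, ‖ψ x‖ ^ 2 ≤ K * (1 + len v) := by
  obtain ⟨K, hK, h⟩ := at_max Q hFRM hZ hZp
  refine ⟨K, hK, fun A ψ v G R2 hA hψ hqs hD hG hcurv hR x => ?_⟩
  obtain ⟨x0, hx0⟩ := max_per (g := fun x => ‖ψ x‖ ^ 2) (hψ.continuous.norm.pow 2) (per_normsq hqs)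
  have h1 := h A ψ v _ hA hψ hD hcurv x0 hx0
  have h2 := hG (‖ψ x0‖ ^ 2) (sq_nonneg _)
  refine (hx0 x).trans ?_
  rcases min_le_iff.1 (h2.trans (by rw [mul_comm]; exact h1) :
    min (‖ψ x0‖ ^ 2) R2 ≤ K * (1 + len v)) with h3 | h3
  · exact h3
  · linarith

/-- `|v|` is bounded in terms of the mean value of `|ψ|²`. -/
theorem v_bound : ∃ K : ℝ, 0 < K ∧ ∀ (A : R4 → R4 →L[ℝ] ℝ) (ψ : R4 → Sp) (v : Fin 3 → ℝ)
    (g : R4 → ℝ), Continuous ψ → Continuous g → (∀ x, 0 ≤ g x ∧ g x ≤ 1) →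
    (∀ j, ∫ x in cube, w4 (fun p q => dd A x p q) (fun p q => (tri D j).val x p q) =
      2 * Real.pi * (tri D j).κ (e 2) (e 3)) →
    CurvEq Q A ψ v g → len v ≤ K * (1 + ∫ x in cube, ‖ψ x‖ ^ 2) := by
  have h1 : ∀ j k, ∃ C, 0 ≤ C ∧ ∀ x, ‖Q.T x j k‖ ≤ C := fun j k =>
    bdd_per (Q.T_smooth j k).continuous (Q.T_per j k)
  choose C hC0 hC using h1
  have hCn : 0 ≤ ∑ j, ∑ k, C j k :=
    Finset.sum_nonneg fun j _ => Finset.sum_nonneg fun k _ => hC0 j k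
  have hκn : 0 ≤ ∑ j, |2 * Real.pi * (tri D j).κ (e 2) (e 3)| :=
    Finset.sum_nonneg fun j _ => abs_nonneg _
  refine ⟨∑ j, |2 * Real.pi * (tri D j).κ (e 2) (e 3)| + ∑ j, ∑ k, C j k + 1, by positivity,
    fun A ψ v g hψ hg hg01 hint hcurv => ?_⟩
  have hcub : volume cube = 1 := by
    rw [cube, Real.volume_Icc_pi]
    simp
  have hcc : IsCompact cube := isCompact_Icc
  have hI : ∀ {f : R4 → ℝ}, Continuous f → IntegrableOn f cube := fun hf =>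
    hf.continuousOn.integrableOn_compact hcc
  have hψ2 : Continuous fun x => ‖ψ x‖ ^ 2 := hψ.norm.pow 2
  have hM : 0 ≤ ∫ x in cube, ‖ψ x‖ ^ 2 := integral_nonneg fun x => sq_nonneg _
  have hspc : ∀ k, Continuous fun x => sp (ψ x) k := fun k => by
    have : Continuous fun x => (inner ℂ (ψ x) (pau k (ψ x))).re :=
      Complex.continuous_re.comp (hψ.inner ((pau k).continuous.comp hψ))
    exact this
  have hspb : ∀ x k, |sp (ψ x) k| ≤ ‖ψ x‖ ^ 2 := fun x k => by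
    refine abs_le_of_sq_le_sq ?_ (sq_nonneg _)
    rw [← sp_sq]
    exact Finset.single_le_sum (f := fun k => sp (ψ x) k ^ 2) (fun _ _ => sq_nonneg _)
      (Finset.mem_univ k)
  have hj : ∀ j, |v j| ≤ |2 * Real.pi * (tri D j).κ (e 2) (e 3)| +
      (∑ k, C j k) * ∫ x in cube, ‖ψ x‖ ^ 2 := by
    intro j
    have hc : Continuous fun x => (1 / 2) * (g x * ∑ k, Q.T x j k * sp (ψ x) k) :=
      continuous_const.mul (hg.mul (continuous_finsetSum _ fun k _ =>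
        (Q.T_smooth j k).continuous.mul (hspc k)))
    have h2 := hint j
    have h3 : ∫ x in cube, w4 (fun p q => dd A x p q) (fun p q => (tri D j).val x p q) =
        v j - ∫ x in cube, (1 / 2) * (g x * ∑ k, Q.T x j k * sp (ψ x) k) := by
      have h4 : ∀ x, w4 (fun p q => dd A x p q) (fun p q => (tri D j).val x p q) =
          v j - (1 / 2) * (g x * ∑ k, Q.T x j k * sp (ψ x) k) := fun x => hcurv x j
      simp only [h4]
      rw [integral_sub (hI continuous_const) (hI hc), setIntegral_const, Measure.real, hcub]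
      simp
    rw [h2] at h3
    have h5 : |∫ x in cube, (1 / 2) * (g x * ∑ k, Q.T x j k * sp (ψ x) k)| ≤
        (∑ k, C j k) * ∫ x in cube, ‖ψ x‖ ^ 2 := by
      rw [← integral_const_mul, ← Real.norm_eq_abs]
      refine norm_integral_le_of_norm_le ((hI hψ2).const_mul _) (Filter.Eventually.of_forall
        fun x => ?_)
      rw [Real.norm_eq_abs, abs_mul, abs_mul, abs_of_nonneg (hg01 x).1]
      have h6 : |∑ k, Q.T x j k * sp (ψ x) k| ≤ (∑ k, C j k) * ‖ψ x‖ ^ 2 := by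
        rw [Finset.sum_mul]
        refine (Finset.abs_sum_le_sum_abs _ _).trans (Finset.sum_le_sum fun k _ => ?_)
        rw [abs_mul]
        exact mul_le_mul (hC j k x) (hspb x k) (abs_nonneg _) (hC0 j k)
      have h7 : g x * |∑ k, Q.T x j k * sp (ψ x) k| ≤ 1 * ((∑ k, C j k) * ‖ψ x‖ ^ 2) :=
        mul_le_mul (hg01 x).2 h6 (abs_nonneg _) zero_le_one
      have h8 : 0 ≤ g x * |∑ k, Q.T x j k * sp (ψ x) k| :=
        mul_nonneg (hg01 x).1 (abs_nonneg _)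
      rw [abs_of_pos (by norm_num : (0 : ℝ) < 1 / 2)]
      linarith
    have h6 : v j = 2 * Real.pi * (tri D j).κ (e 2) (e 3) +
        ∫ x in cube, (1 / 2) * (g x * ∑ k, Q.T x j k * sp (ψ x) k) := by linarith
    rw [h6]
    exact (abs_add_le _ _).trans (by linarith)
  refine (len_le_sum v).trans ((Finset.sum_le_sum fun j _ => hj j).trans ?_)
  rw [Finset.sum_add_distrib, ← Finset.sum_mul]
  nlinarith

/-- Both together: for the truncated system with `∫ |ψ|² ≤ M` and `R2` large, `|ψ|² ≤ K (1 + M)`,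
in particular the truncation is not active. -/
theorem trunc' (hFRM : FRM_statement) {Z : R4 → En} (hZ : ContDiff ℝ ∞ Z) (hZp : Per4 Z) :
    ∃ K : ℝ, 0 < K ∧ ∀ (A : R4 → R4 →L[ℝ] ℝ) (ψ : R4 → Sp) (v : Fin 3 → ℝ) (G : ℝ → ℝ) (R2 M : ℝ),
    ContDiff ℝ 1 A → ContDiff ℝ 2 ψ → QS ψ → (∀ x, Q.dirac A ψ x + Z x (ψ x) = 0) →
    Continuous G → (∀ t, 0 ≤ t → 0 ≤ G t ∧ G t ≤ 1 ∧ min t R2 ≤ t * G t) →
    CurvEq Q A ψ v (fun x => G (‖ψ x‖ ^ 2)) →
    (∀ j, ∫ x in cube, w4 (fun p q => dd A x p q) (fun p q => (tri D j).val x p q) =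
      2 * Real.pi * (tri D j).κ (e 2) (e 3)) →
    ∫ x in cube, ‖ψ x‖ ^ 2 ≤ M → K * (1 + M) < R2 →
    ∀ x, ‖ψ x‖ ^ 2 ≤ K * (1 + M) := by
  obtain ⟨K1, hK1, h1⟩ := trunc Q hFRM hZ hZp
  obtain ⟨K2, hK2, h2⟩ := v_bound Q
  refine ⟨K1 * (1 + K2), by positivity, fun A ψ v G R2 M hA hψ hqs hD hGc hG hcurv hint hM hR x =>
    ?_⟩
  have h3 := h2 A ψ v _ hψ.continuous (hGc.comp (hψ.continuous.norm.pow 2))
    (fun x => ⟨(hG _ (sq_nonneg _)).1, (hG _ (sq_nonneg _)).2.1⟩) hint hcurv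
  have hM0 : 0 ≤ M := le_trans (integral_nonneg fun x => sq_nonneg _) hM
  have h4 : len v ≤ K2 * (1 + M) := h3.trans (mul_le_mul_of_nonneg_left (by linarith) hK2.le)
  have h5 : K1 * (1 + len v) ≤ K1 * (1 + K2) * (1 + M) := by
    have : 1 + len v ≤ (1 + K2) * (1 + M) := by nlinarith
    calc K1 * (1 + len v) ≤ K1 * ((1 + K2) * (1 + M)) := mul_le_mul_of_nonneg_left this hK1.le
      _ = _ := by ring
  exact (h1 A ψ v G R2 hA hψ hqs hD (fun t ht => (hG t ht).2.2) hcurv (by linarith) x).trans h5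

/-- `|v| → ∞` if the mean value of `|ψ|²` tends to infinity. -/
theorem len_large (hFRM : FRM_statement) {Z : R4 → En} (hZ : ContDiff ℝ ∞ Z) (hZp : Per4 Z) :
    ∃ K : ℝ, 0 < K ∧ ∀ (A : R4 → R4 →L[ℝ] ℝ) (ψ : R4 → Sp) (v : Fin 3 → ℝ), SW Q Z A ψ v →
    ∫ x in cube, ‖ψ x‖ ^ 2 ≤ K * (1 + len v) := by
  obtain ⟨K, hK, h⟩ := at_max Q hFRM hZ hZp
  refine ⟨K, hK, fun A ψ v hSW => ?_⟩
  have hψ : ContDiff ℝ 2 ψ := hSW.ψ_smooth.of_le two_le_inf
  obtain ⟨x0, hx0⟩ := max_per (g := fun x => ‖ψ x‖ ^ 2) (hψ.continuous.norm.pow 2)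
    (per_normsq hSW.ψ_quasi)
  have h1 := h A ψ v (fun _ => 1) (hSW.A_smooth.of_le (by simp)) hψ hSW.dirac
    (fun x j => by rw [hSW.curv x j, one_mul]) x0 hx0
  rw [one_mul] at h1
  have hcub : volume cube = 1 := by
    rw [cube, Real.volume_Icc_pi]
    simp
  calc ∫ x in cube, ‖ψ x‖ ^ 2 ≤ ∫ _x in cube, ‖ψ x0‖ ^ 2 := by
        refine setIntegral_mono_on
          ((hψ.continuous.norm.pow 2).continuousOn.integrableOn_compact isCompact_Icc)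
          (continuous_const.continuousOn.integrableOn_compact isCompact_Icc)
          measurableSet_Icc fun x _ => hx0 x
    _ = ‖ψ x0‖ ^ 2 := by
        rw [setIntegral_const, Measure.real, hcub]
        simp
    _ ≤ _ := h1

end Vale.Agent.P247.H332.E6
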